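import Vale.Agent.P331.Bdl.B1

/-!
# Matroids with short circuits, almighty adversary: the rule

Every element is labelled at random: sample elements (only the sample value is used) and test
elements (only the value is used).  A set of test elements is lawful if it is contained in the
greedy basis of its union with the sample elements.  A test element is accepted if it can be added
to every lawful set of earlier test elements.
-/

namespace Vale.Agent.P331.Cir

open MeasureTheory Set Vale.Agent.P331 Vale.Agent.P331.Osel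
open scoped ENNReal NNReal Classical

set_option linter.all false

section rule

variable {E : Type*} [Fintype E]

/-- The elements above the pair `(e, t)`: the elements outside `T` for the values `s`, and those of
`B`. -/
def above (T : E → Prop) (s : E → ℝ≥0) (B : Set (E × ℝ≥0)) (e : E) (t : ℝ≥0) : Set E :=
  {g | ¬ T g ∧ kp e t < kp g (s g)} ∪ {g | ∃ w, (g, w) ∈ B ∧ kp e t < kp g w}

/-- The set `B` of pairs is lawful. -/
def lw (M : Matroid E) (T : E → Prop) (s : E → ℝ≥0) (B : Set (E × ℝ≥0)) : Prop :=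
  ∀ p ∈ B, p.1 ∉ M.closure (above T s B p.1 p.2)

/-- The decisions of the rule. -/
def dec (M : Matroid E) (T : E → Prop) (s : E → ℝ≥0) (h : List (E × ℝ≥0)) (x : E × ℝ≥0) : Prop :=
  T x.1 ∧ ∀ B : Set (E × ℝ≥0), (∀ p ∈ B, p ∈ h ∧ T p.1) → lw M T s B → lw M T s (insert x B)

/-- The set `B` of elements is lawful. -/
def lwE (M : Matroid E) (T : E → Prop) (s v : E → ℝ≥0) (B : Set E) : Prop :=
  ∀ f ∈ B, f ∉ M.closure ({g | ¬ T g ∧ kp f (v f) < kp g (s g)} ∪
    {g | g ∈ B ∧ kp f (v f) < kp g (v g)})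

variable {M : Matroid E} {T : E → Prop}

theorem lw_image (s v : E → ℝ≥0) (B : Set E) :
    lw M T s ((fun f => (f, v f)) '' B) ↔ lwE M T s v B := by
  have h1 : ∀ f, above T s ((fun f => (f, v f)) '' B) f (v f) =
      {g | ¬ T g ∧ kp f (v f) < kp g (s g)} ∪ {g | g ∈ B ∧ kp f (v f) < kp g (v g)} := by
    intro f
    unfold above
    congr 1
    ext g
    constructor
    · rintro ⟨w, ⟨g', hg', hgw⟩, hlt⟩
      have h2 : g' = g := congrArg Prod.fst hgw
      have h3 : v g' = w := congrArg Prod.snd hgw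
      subst h2; subst h3
      exact ⟨hg', hlt⟩
    · rintro ⟨hg, hlt⟩
      exact ⟨v g, ⟨g, hg, rfl⟩, hlt⟩
  constructor
  · intro h f hf
    have h2 := h (f, v f) ⟨f, hf, rfl⟩
    rw [h1] at h2
    exact h2
  · rintro h _ ⟨f, hf, rfl⟩
    change f ∉ M.closure (above T s ((fun f => (f, v f)) '' B) f (v f))
    rw [h1]
    exact h f hf

theorem dec_iff (s v : E → ℝ≥0) (l : List E) (e : E) :
    dec M T s (hs v l) (e, v e) ↔ T e ∧ ∀ B : Set E, (∀ f ∈ B, f ∈ l ∧ T f) →
      lwE M T s v B → lwE M T s v (insert e B) := by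
  unfold dec
  refine and_congr Iff.rfl ?_
  constructor
  · intro h B hB hl
    have h1 := h ((fun f => (f, v f)) '' B) ?_ ((lw_image s v B).2 hl)
    · rw [← image_insert_eq (f := fun f => (f, v f)), lw_image] at h1
      exact h1
    · rintro _ ⟨f, hf, rfl⟩
      exact ⟨List.mem_map.2 ⟨f, (hB f hf).1, rfl⟩, (hB f hf).2⟩
  · intro h B hB hl
    have h1 : B = (fun f => (f, v f)) '' {f | (f, v f) ∈ B} := by
      ext p
      constructor
      · intro hp
        obtain ⟨f, _, rfl⟩ := List.mem_map.1 (hB p hp).1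
        exact ⟨f, hp, rfl⟩
      · rintro ⟨f, hf, rfl⟩
        exact hf
    rw [h1] at hl ⊢
    rw [lw_image] at hl
    rw [← image_insert_eq (f := fun f => (f, v f)), lw_image]
    refine h _ ?_ hl
    intro f hf
    have h2 := hB _ hf
    refine ⟨?_, h2.2⟩
    obtain ⟨g, hg, hgf⟩ := List.mem_map.1 h2.1
    have h3 : g = f := congrArg Prod.fst hgf
    rwa [← h3]

/-- The accepted set is lawful. -/
theorem lwE_accepted (s v : E → ℝ≥0) (l : List E) :
    lwE M T s v (accepted (dec M T s) (hs v l) : Set E) ∧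
      ∀ f ∈ accepted (dec M T s) (hs v l), f ∈ l ∧ T f := by
  induction l with
  | nil =>
    refine ⟨?_, ?_⟩
    · intro f hf
      exact absurd hf (by simp [hs, accepted])
    · intro f hf
      exact absurd hf (by simp [hs, accepted])
  | cons e l ih =>
    change lwE M T s v (accepted (dec M T s) ((e, v e) :: hs v l) : Set E) ∧
      ∀ f ∈ accepted (dec M T s) ((e, v e) :: hs v l), f ∈ e :: l ∧ T f
    rw [accepted]
    split_ifs with h
    · have h1 := (dec_iff s v l e).1 h
      refine ⟨?_, ?_⟩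
      · rw [Finset.coe_insert]
        exact h1.2 _ (fun f hf => ih.2 f hf) ih.1
      · intro f hf
        rcases Finset.mem_insert.1 hf with rfl | hf
        · exact ⟨List.mem_cons_self, h1.1⟩
        · exact ⟨List.mem_cons_of_mem _ (ih.2 f hf).1, (ih.2 f hf).2⟩
    · exact ⟨ih.1, fun f hf => ⟨List.mem_cons_of_mem _ (ih.2 f hf).1, (ih.2 f hf).2⟩⟩

/-- The accepted set is independent. -/
theorem indep_accepted (hM : M.E = univ) (s : E → ℝ≥0) (h : List (E × ℝ≥0))
    (hnd : (h.map Prod.fst).Nodup) : M.Indep (accepted (dec M T s) h : Set E) := by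
  obtain ⟨u, hu⟩ := exists_hs h hnd
  set l := h.map Prod.fst with hl
  rw [hu]
  set A := accepted (dec M T s) (hs u l) with hA
  have h1 : ∀ e ∈ A, e ∉ M.closure (∅ ∪ {f | f ∈ A ∧ key u e < key u f}) := by
    intro e he hcl
    refine (lwE_accepted (M := M) (T := T) s u l).1 e he (M.closure_subset_closure ?_ hcl)
    rw [empty_union]
    rintro f ⟨hf, hk⟩
    exact Or.inr ⟨hf, hk⟩
  have h2 := eRk_union_eq hM (key u) (key_inj u) ∅ A h1
  rw [empty_union, M.eRk_empty, zero_add] at h2
  have h3 : M.eRk (A : Set E) = (A : Set E).encard := by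
    rw [h2, Set.encard_coe_eq_coe_finsetCard]
  exact (Matroid.indep_iff_eRk_eq_encard_of_finite A.finite_toSet).2 h3

/-- A test element which can be added to every lawful set of other test elements is accepted in
every order. -/
theorem mem_accepted_of_good {s v : E → ℝ≥0} {l : List E} (hnd : l.Nodup) {z : E} (hz : z ∈ l)
    (hT : T z) (hg : ∀ B : Set E, (∀ f ∈ B, f ≠ z ∧ T f) → lwE M T s v B →
      lwE M T s v (insert z B)) : z ∈ accepted (dec M T s) (hs v l) := by
  rw [mem_accepted_iff hnd hz, dec_iff]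
  refine ⟨hT, fun B hB => hg B fun f hf => ⟨?_, (hB f hf).2⟩⟩
  rintro rfl
  exact notMem_bef hnd f (hB f hf).1

omit [Fintype E] in
theorem lwE_congr [Fintype E] {s v u : E → ℝ≥0} (hs : ∀ f, ¬ T f → s f = u f) (hv : ∀ f, T f → v f = u f)
    {B : Set E} (hB : ∀ f ∈ B, T f) : lwE M T s v B ↔ lwE M T u u B := by
  unfold lwE
  refine forall₂_congr fun f hf => ?_
  have h1 : ({g | ¬ T g ∧ kp f (v f) < kp g (s g)} ∪ {g | g ∈ B ∧ kp f (v f) < kp g (v g)}) =
      ({g | ¬ T g ∧ kp f (u f) < kp g (u g)} ∪ {g | g ∈ B ∧ kp f (u f) < kp g (u g)} : Set E) := by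
    rw [hv f (hB f hf)]
    congr 1
    · ext g
      constructor
      · rintro ⟨h1, h2⟩
        rw [hs g h1] at h2
        exact ⟨h1, h2⟩
      · rintro ⟨h1, h2⟩
        refine ⟨h1, ?_⟩
        rw [hs g h1]
        exact h2
    · ext g
      constructor
      · rintro ⟨h1, h2⟩
        rw [hv g (hB g h1)] at h2
        exact ⟨h1, h2⟩
      · rintro ⟨h1, h2⟩
        refine ⟨h1, ?_⟩
        rw [hv g (hB g h1)]
        exact h2
  rw [h1]

end rule

section measurability

variable {E : Type*} [Fintype E] {Ω : Type*} [MeasurableSpace Ω]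

theorem measurableSet_lwE (M : Matroid E) (T : E → Prop) {s v : Ω → E → ℝ≥0}
    (hs' : ∀ y, Measurable fun ω => s ω y) (hv : ∀ y, Measurable fun ω => v ω y) (B : Set E) :
    MeasurableSet {ω | lwE M T (s ω) (v ω) B} := by
  have h : {ω | lwE M T (s ω) (v ω) B} = ⋂ f : E, ({_ω | f ∉ B} ∪
      {ω | f ∈ M.closure ({g | ¬ T g ∧ kp f (v ω f) < kp g (s ω g)} ∪
        {g | g ∈ B ∧ kp f (v ω f) < kp g (v ω g)})}ᶜ) := by
    ext ω
    constructor
    · intro h
      refine mem_iInter.2 fun f => ?_
      by_cases hf : f ∈ B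
      · exact Or.inr (h f hf)
      · exact Or.inl hf
    · intro h f hf
      rcases mem_iInter.1 h f with h1 | h1
      · exact absurd hf h1
      · exact h1
  rw [h]
  refine MeasurableSet.iInter fun f => (MeasurableSet.const _).union (MeasurableSet.compl ?_)
  refine measurableSet_of_mem (fun ω => {g | ¬ T g ∧ kp f (v ω f) < kp g (s ω g)} ∪
        {g | g ∈ B ∧ kp f (v ω f) < kp g (v ω g)}) (fun g => ?_) (fun X => f ∈ M.closure X)
  have h2 : {ω | g ∈ ({g | ¬ T g ∧ kp f (v ω f) < kp g (s ω g)} ∪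
        {g | g ∈ B ∧ kp f (v ω f) < kp g (v ω g)} : Set E)} =
      ({_ω | ¬ T g} ∩ {ω | kp f (v ω f) < kp g (s ω g)}) ∪
        ({_ω | g ∈ B} ∩ {ω | kp f (v ω f) < kp g (v ω g)}) := by
    ext ω
    exact Iff.rfl
  rw [h2]
  exact ((MeasurableSet.const _).inter (measurableSet_kp_lt f g (hv f) (hs' g))).union
    ((MeasurableSet.const _).inter (measurableSet_kp_lt f g (hv f) (hv g)))

/-- The decisions of the rule are measurable. -/
theorem measurableSet_dec (M : Matroid E) (T : E → Prop) {s v : Ω → E → ℝ≥0}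
    (hs' : ∀ y, Measurable fun ω => s ω y) (hv : ∀ y, Measurable fun ω => v ω y) (l : List E)
    (e : E) : MeasurableSet {ω | dec M T (s ω) (hs (v ω) l) (e, v ω e)} := by
  have h : {ω | dec M T (s ω) (hs (v ω) l) (e, v ω e)} = {_ω | T e} ∩
      ⋂ B : Set E, ({_ω | ¬ ∀ f ∈ B, f ∈ l ∧ T f} ∪ ({ω | lwE M T (s ω) (v ω) B}ᶜ ∪
        {ω | lwE M T (s ω) (v ω) (insert e B)})) := by
    ext ω
    change dec M T (s ω) (hs (v ω) l) (e, v ω e) ↔ _
    rw [dec_iff]
    constructor
    · rintro ⟨h1, h2⟩
      refine ⟨h1, mem_iInter.2 fun B => ?_⟩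
      by_cases hB : ∀ f ∈ B, f ∈ l ∧ T f
      · by_cases hl : lwE M T (s ω) (v ω) B
        · exact Or.inr (Or.inr (h2 B hB hl))
        · exact Or.inr (Or.inl hl)
      · exact Or.inl hB
    · rintro ⟨h1, h2⟩
      refine ⟨h1, fun B hB hl => ?_⟩
      rcases mem_iInter.1 h2 B with h3 | h3 | h3
      · exact absurd hB h3
      · exact absurd hl h3
      · exact h3
  rw [h]
  exact (MeasurableSet.const _).inter (MeasurableSet.iInter fun B => (MeasurableSet.const _).union
    ((measurableSet_lwE M T hs' hv B).compl.union (measurableSet_lwE M T hs' hv (insert e B))))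

end measurability

section therule

variable {E : Type} [Fintype E] {M : Matroid E}

/-- The test elements. -/
def TT (a : ℕ) {N : ℕ} (r : E → Fin N) (e : E) : Prop := (r e : ℕ) < a

/-- The rule: labels in `Fin (N + 1)`, test elements are those with label below `a`. -/
noncomputable def cirRule (hM : M.E = univ) (a N : ℕ) : OnlineRule M where
  Seed := E → Fin (N + 1)
  law := unif (E → Fin (N + 1))
  isProb := unif_prob _
  accept r s := dec M (TT a r) s
  measurable_accept := by
    intro l e
    have hset : {ω : (E → Fin (N + 1)) × (E → ℝ≥0) × (E → ℝ≥0) |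
        dec M (TT a ω.1) ω.2.1 (l.map fun f => (f, ω.2.2 f)) (e, ω.2.2 e)} =
        ⋃ r : E → Fin (N + 1), {r} ×ˢ {p : (E → ℝ≥0) × (E → ℝ≥0) |
          dec M (TT a r) p.1 (hs p.2 l) (e, p.2 e)} := by
      ext ⟨r, s, v⟩
      simp only [mem_iUnion, mem_prod, mem_singleton_iff]
      constructor
      · intro h
        exact ⟨r, rfl, h⟩
      · rintro ⟨r', rfl, h⟩
        exact h
    rw [hset]
    exact MeasurableSet.iUnion fun r => (MeasurableSet.singleton r).prod
      (measurableSet_dec M (TT a r) (fun y => (measurable_pi_apply y).comp measurable_fst)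
        (fun y => (measurable_pi_apply y).comp measurable_snd) l e)
  feasible := by
    intro r s h hnd
    exact indep_accepted hM s h hnd

end therule

end Vale.Agent.P331.Cir
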