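import Vale.Agent.P331.H681.CircA

/-!
# Matroids with short circuits, almighty adversary: the counting argument
-/

namespace Vale.Agent.P331.Cir

open MeasureTheory Set Vale.Agent.P331 Vale.Agent.P331.Osel
open scoped ENNReal NNReal Classical

set_option linter.all false

section pattern

variable {E : Type*} [Fintype E] {M : Matroid E} {u : E → ℝ≥0} {z : E}

/-- The elements of `X` which are at least as heavy as `f`. -/
def geS (u : E → ℝ≥0) (X : Set E) (f : E) : Set E := {g | g ∈ X ∧ key u f ≤ key u g}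

/-- The elements of `X` which are heavier than `f`. -/
def gtS (u : E → ℝ≥0) (X : Set E) (f : E) : Set E := {g | g ∈ X ∧ key u f < key u g}

/-- `f` is the first element at which `X` spans `z`. -/
def critAt (M : Matroid E) (u : E → ℝ≥0) (z : E) (X : Set E) (f : E) : Prop :=
  z ∈ M.closure (geS u X f) ∧ z ∉ M.closure (gtS u X f)

theorem critAt_unique {X : Set E} {f f' : E} (h : critAt M u z X f) (h' : critAt M u z X f') :
    f = f' := by
  rcases lt_trichotomy (key u f) (key u f') with hlt | heq | hlt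
  · refine absurd (M.closure_subset_closure ?_ h'.1) h.2
    rintro g ⟨h1, h2⟩
    exact ⟨h1, lt_of_lt_of_le hlt h2⟩
  · exact key_inj u heq
  · refine absurd (M.closure_subset_closure ?_ h.1) h'.2
    rintro g ⟨h1, h2⟩
    exact ⟨h1, lt_of_lt_of_le hlt h2⟩

/-- The elements of `R` are pivotal when `X` spans `z`, and `R` contains the first element at which
this happens. -/
def Pat (M : Matroid E) (u : E → ℝ≥0) (z : E) (X : Set E) (R : Finset E) : Prop :=
  ∃ f ∈ R, critAt M u z X f ∧ ∀ ρ ∈ R, z ∉ M.closure (geS u X f \ {ρ})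

/-- If `z` is not safe, there is a pattern. -/
theorem exists_pat {T : E → Prop} (hz : Gr M u z) (hTz : T z)
    (hbad : ¬ ∀ B : Set E, (∀ f ∈ B, f ≠ z ∧ T f) → lwE M T u u B → lwE M T u u (insert z B)) :
    ∃ R : Finset E, (∀ f ∈ R, f ≠ z ∧ T f) ∧ Pat M u z ({g | ¬ T g} ∪ (R : Set E)) R := by
  push Not at hbad
  obtain ⟨B, hB, hl, hnl⟩ := hbad
  unfold lwE at hnl
  push Not at hnl
  obtain ⟨f, hf, hcl⟩ := hnl
  have hfz : f ≠ z := by
    rintro rfl
    refine hz (M.closure_subset_closure ?_ hcl)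
    rintro g (⟨_, h⟩ | ⟨_, h⟩)
    · exact h
    · exact h
  have hfB : f ∈ B := by
    rcases hf with h | h
    · exact absurd h hfz
    · exact h
  have hTf : T f := (hB f hfB).2
  set Y : Set E := {g | ¬ T g ∧ key u f < key u g} with hY
  set Bg : Set E := {g | g ∈ B ∧ key u f < key u g} with hBg
  have hfn : f ∉ M.closure (Y ∪ Bg) := hl f hfB
  have hfi : f ∈ M.closure (insert z (Y ∪ Bg)) := by
    refine M.closure_subset_closure ?_ hcl
    rintro g (⟨h1, h2⟩ | ⟨h1, h2⟩)
    · exact Or.inr (Or.inl ⟨h1, h2⟩)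
    · rcases h1 with h1 | h1
      · exact Or.inl h1
      · exact Or.inr (Or.inr ⟨h1, h2⟩)
  obtain ⟨hz1, hz2⟩ := M.closure_exchange ⟨hfi, hfn⟩
  -- a minimal set
  set 𝓢 : Finset (Finset E) := Finset.univ.filter fun R : Finset E =>
    (R : Set E) ⊆ insert f Bg ∧ z ∈ M.closure (Y ∪ (R : Set E)) with h𝓢
  have hne : 𝓢.Nonempty := by
    refine ⟨(insert f Bg).toFinset, Finset.mem_filter.2 ⟨Finset.mem_univ _, ?_, ?_⟩⟩
    · rw [Set.coe_toFinset]
    · rw [Set.coe_toFinset]
      have h1 : Y ∪ insert f Bg = insert f (Y ∪ Bg) := by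
        rw [Set.union_insert]
      rw [h1]
      exact hz1
  obtain ⟨R, hR, hmin⟩ := Finset.exists_min_image 𝓢 Finset.card hne
  have hR' := (Finset.mem_filter.1 hR).2
  have hRmin : ∀ ρ ∈ R, z ∉ M.closure (Y ∪ ((R.erase ρ : Finset E) : Set E)) := by
    intro ρ hρ hcl'
    have h1 : R.erase ρ ∈ 𝓢 := by
      refine Finset.mem_filter.2 ⟨Finset.mem_univ _, ?_, hcl'⟩
      exact (Finset.coe_subset.2 (Finset.erase_subset ρ R)).trans hR'.1
    have h2 := hmin _ h1
    have h3 := Finset.card_erase_lt_of_mem hρ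
    omega
  have hfR : f ∈ R := by
    by_contra hfR
    refine hz2 (M.closure_subset_closure ?_ hR'.2)
    apply union_subset_union_right
    intro g hg
    rcases hR'.1 hg with h | h
    · subst h; exact absurd hg hfR
    · exact h
  have hRT : ∀ g ∈ R, g ≠ z ∧ T g := by
    intro g hg
    rcases hR'.1 (Finset.mem_coe.2 hg) with h | h
    · rw [h]; exact ⟨hfz, hTf⟩
    · exact hB g h.1
  have hge : geS u ({g | ¬ T g} ∪ (R : Set E)) f ⊆ Y ∪ (R : Set E) := by
    rintro g ⟨h1 | h1, h2⟩
    · left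
      refine ⟨h1, lt_of_le_of_ne h2 ?_⟩
      intro h3
      have h4 := key_inj u h3
      subst h4
      exact h1 hTf
    · exact Or.inr h1
  have hge' : Y ∪ (R : Set E) ⊆ geS u ({g | ¬ T g} ∪ (R : Set E)) f := by
    rintro g (⟨h1, h2⟩ | h1)
    · exact ⟨Or.inl h1, h2.le⟩
    · refine ⟨Or.inr h1, ?_⟩
      rcases hR'.1 h1 with h | h
      · rw [h]
      · exact h.2.le
  refine ⟨R, hRT, f, hfR, ⟨M.closure_subset_closure hge' hR'.2, ?_⟩, ?_⟩
  · intro h
    refine hz2 (M.closure_subset_closure ?_ h)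
    rintro g ⟨h1 | h1, h2⟩
    · exact Or.inl ⟨h1, h2⟩
    · rcases hR'.1 h1 with h3 | h3
      · rw [h3] at h2
        exact absurd h2 (lt_irrefl _)
      · exact Or.inr h3
  · intro ρ hρ h
    refine hRmin ρ hρ (M.closure_subset_closure ?_ h)
    rintro g ⟨h1, h2⟩
    rcases hge h1 with h3 | h3
    · exact Or.inl h3
    · exact Or.inr (Finset.mem_coe.2 (Finset.mem_erase.2 ⟨h2, h3⟩))

/-- The number of pivotal elements is less than the length of the longest circuit. -/
theorem card_piv_lt {L : ℕ} (hC : ∀ C, M.IsCircuit C → C.encard ≤ L) {X : Set E} (hzX : z ∉ X)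
    {f : E} (hf : z ∈ M.closure (geS u X f)) :
    (Finset.univ.filter fun ρ => z ∉ M.closure (geS u X f \ {ρ})).card + 1 ≤ L := by
  have hz : z ∉ geS u X f := fun h => hzX h.1
  obtain ⟨C, hCs, hC1, hzC⟩ := M.exists_isCircuit_of_mem_closure hf hz
  have hsub : (Finset.univ.filter fun ρ => z ∉ M.closure (geS u X f \ {ρ})) ⊆
      C.toFinset.erase z := by
    intro ρ hρ
    have hρ' := (Finset.mem_filter.1 hρ).2
    by_contra hn
    apply hρ'
    have h1 : z ∈ M.closure (C \ {z}) := hC1.mem_closure_diff_singleton_of_mem hzC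
    refine M.closure_subset_closure ?_ h1
    rintro g ⟨hg1, hg2⟩
    have hg3 : g ∈ geS u X f := by
      rcases hCs hg1 with h | h
      · exact absurd h hg2
      · exact h
    refine ⟨hg3, ?_⟩
    rintro rfl
    exact hn (Finset.mem_erase.2 ⟨hg2, Set.mem_toFinset.2 hg1⟩)
  have h1 := Finset.card_le_card hsub
  have hzC' : z ∈ C.toFinset := Set.mem_toFinset.2 hzC
  rw [Finset.card_erase_of_mem hzC'] at h1
  have h2 : C.toFinset.card ≤ L := by
    have h3 := hC C hC1
    rw [← Set.coe_toFinset C, Set.encard_coe_eq_coe_finsetCard] at h3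
    exact_mod_cast h3
  have h3 : 0 < C.toFinset.card := Finset.card_pos.2 ⟨z, hzC'⟩
  omega

/-- The weighted number of patterns for a fixed `X`. -/
theorem sum_pat_le {L : ℕ} (hL : 2 ≤ L) (hC : ∀ C, M.IsCircuit C → C.encard ≤ L) {X : Set E}
    (hzX : z ∉ X) {p : ℝ} (hp : 0 ≤ p) :
    ∑ R : Finset E with Pat M u z X R, p ^ R.card ≤ p * (1 + p) ^ (L - 2) := by
  by_cases hex : ∃ R : Finset E, Pat M u z X R
  · obtain ⟨R₀, f, hf0, hcr, _⟩ := hex
    set Piv : Finset E := Finset.univ.filter fun ρ => z ∉ M.closure (geS u X f \ {ρ}) with hPiv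
    have hcard := card_piv_lt hC hzX hcr.1
    rw [← hPiv] at hcard
    set Q := Piv.erase f with hQ
    have hfP : f ∈ Piv := by
      refine Finset.mem_filter.2 ⟨Finset.mem_univ _, fun h => hcr.2 ?_⟩
      refine M.closure_subset_closure ?_ h
      rintro g ⟨⟨h1, h2⟩, h3⟩
      refine ⟨h1, lt_of_le_of_ne h2 ?_⟩
      intro h4
      exact h3 (key_inj u h4).symm
    have hQc : Q.card ≤ L - 2 := by
      rw [hQ, Finset.card_erase_of_mem hfP]
      omega
    have hsub : (Finset.univ.filter fun R : Finset E => Pat M u z X R) ⊆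
        Q.powerset.image fun S => insert f S := by
      intro R hR
      obtain ⟨g, hg, hcr', hpv⟩ := (Finset.mem_filter.1 hR).2
      have hgf : g = f := critAt_unique hcr' hcr
      subst hgf
      refine Finset.mem_image.2 ⟨R.erase g, Finset.mem_powerset.2 ?_, Finset.insert_erase hg⟩
      intro ρ hρ
      have hρ' := Finset.mem_erase.1 hρ
      exact Finset.mem_erase.2 ⟨hρ'.1, Finset.mem_filter.2 ⟨Finset.mem_univ _, hpv ρ hρ'.2⟩⟩
    have hfQ : f ∉ Q := Finset.notMem_erase f Piv
    calc ∑ R : Finset E with Pat M u z X R, p ^ R.card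
        ≤ ∑ R ∈ Q.powerset.image fun S => insert f S, p ^ R.card :=
          Finset.sum_le_sum_of_subset_of_nonneg hsub fun _ _ _ => pow_nonneg hp _
      _ = ∑ S ∈ Q.powerset, p ^ (insert f S).card := by
          apply Finset.sum_image
          intro S hS S' hS' h
          have hS1 : f ∉ S := fun h => hfQ (Finset.mem_powerset.1 hS h)
          have hS2 : f ∉ S' := fun h => hfQ (Finset.mem_powerset.1 hS' h)
          change insert f S = insert f S' at h
          rw [← Finset.erase_insert hS1, h, Finset.erase_insert hS2]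
      _ = ∑ S ∈ Q.powerset, p * (p ^ S.card * 1 ^ (Q.card - S.card)) := by
          refine Finset.sum_congr rfl fun S hS => ?_
          have hS1 : f ∉ S := fun h => hfQ (Finset.mem_powerset.1 hS h)
          rw [Finset.card_insert_of_notMem hS1]
          ring
      _ = p * (p + 1) ^ Q.card := by
          rw [← Finset.mul_sum, Finset.sum_pow_mul_eq_add_pow]
      _ ≤ p * (1 + p) ^ (L - 2) := by
          rw [add_comm p 1]
          exact mul_le_mul_of_nonneg_left (pow_le_pow_right₀ (by linarith) hQc) hp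
  · have h0 : (Finset.univ.filter fun R : Finset E => Pat M u z X R) = ∅ := by
      apply Finset.filter_eq_empty_iff.2
      intro R _ hR
      exact hex ⟨R, hR⟩
    rw [h0, Finset.sum_empty]
    positivity

/-- `z` is safe if the test elements are those of `T`. -/
def Safe (M : Matroid E) (u : E → ℝ≥0) (z : E) (T : Finset E) : Prop :=
  ∀ B : Set E, (∀ f ∈ B, f ≠ z ∧ f ∈ T) → lwE M (· ∈ T) u u B → lwE M (· ∈ T) u u (insert z B)

/-- The weight of a set of test elements. -/
noncomputable def wt (a b : ℝ) (T : Finset E) : ℝ := a ^ T.card * b ^ (Tᶜ).card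

theorem wt_nonneg {a b : ℝ} (ha : 0 ≤ a) (hb : 0 ≤ b) (T : Finset E) : 0 ≤ wt a b T := by
  unfold wt; positivity

theorem wt_sdiff {a b : ℝ} (hb : b ≠ 0) {T R : Finset E} (hR : R ⊆ T) :
    wt a b T = wt a b (T \ R) * (a / b) ^ R.card := by
  unfold wt
  have h1 : T.card = (T \ R).card + R.card := by
    rw [Finset.card_sdiff_of_subset hR]
    have := Finset.card_le_card hR
    omega
  have h2 : ((T \ R)ᶜ).card = (Tᶜ).card + R.card := by
    rw [Finset.card_compl, Finset.card_compl]
    have h3 := Finset.card_le_univ T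
    omega
  rw [h2, h1, div_pow, pow_add, pow_add]
  field_simp

/-- The weight of the sets for which `z` is not safe. -/
theorem sum_unsafe_le {L : ℕ} (hL : 2 ≤ L) (hC : ∀ C, M.IsCircuit C → C.encard ≤ L)
    (hz : Gr M u z) {a b : ℝ} (ha : 0 ≤ a) (hb : 0 < b) :
    ∑ T : Finset E with z ∈ T ∧ ¬ Safe M u z T, wt a b T ≤
      (∑ T : Finset E with z ∈ T, wt a b T) * (a / b * (1 + a / b) ^ (L - 2)) := by
  have hex : ∀ T : Finset E, ∃ R : Finset E, z ∈ T ∧ ¬ Safe M u z T →
      (∀ f ∈ R, f ≠ z ∧ f ∈ T) ∧ Pat M u z ((((T \ R : Finset E)ᶜ : Finset E)) : Set E) R := by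
    intro T
    by_cases h : z ∈ T ∧ ¬ Safe M u z T
    · obtain ⟨R, hR1, hR2⟩ := exists_pat (T := (· ∈ T)) hz h.1 h.2
      refine ⟨R, fun _ => ⟨hR1, ?_⟩⟩
      have h1 : ((((T \ R : Finset E)ᶜ : Finset E)) : Set E) = {g | g ∉ T} ∪ (R : Set E) := by
        ext g
        simp only [Finset.mem_coe, Finset.mem_compl, Finset.mem_sdiff, Set.mem_union,
          Set.mem_setOf_eq]
        tauto
      rw [h1]
      exact hR2
    · exact ⟨∅, fun h' => absurd h' h⟩
  choose F hF using hex
  have hp : 0 ≤ a / b := div_nonneg ha hb.le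
  set G : Finset E × Finset E → ℝ := fun y => wt a b y.1 * (a / b) ^ y.2.card with hG
  set 𝓑 : Finset (Finset E) := Finset.univ.filter fun T => z ∈ T ∧ ¬ Safe M u z T with h𝓑
  have hsubT : ∀ T ∈ 𝓑, F T ⊆ T := fun T hT f hf =>
    ((hF T (Finset.mem_filter.1 hT).2).1 f hf).2
  have hinj : Set.InjOn (fun T => (T \ F T, F T)) (𝓑 : Set (Finset E)) := by
    intro T hT T' hT' h
    have h1 : T \ F T = T' \ F T' := congrArg Prod.fst h
    have h2 : F T = F T' := congrArg Prod.snd h
    rw [← Finset.sdiff_union_of_subset (hsubT T hT), ← Finset.sdiff_union_of_subset (hsubT T' hT'),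
      h1, h2]
  calc ∑ T ∈ 𝓑, wt a b T = ∑ T ∈ 𝓑, G (T \ F T, F T) := by
        refine Finset.sum_congr rfl fun T hT => ?_
        exact wt_sdiff hb.ne' (hsubT T hT)
    _ = ∑ y ∈ 𝓑.image fun T => (T \ F T, F T), G y := (Finset.sum_image hinj).symm
    _ ≤ ∑ y : Finset E × Finset E with z ∈ y.1 ∧ Pat M u z (((y.1ᶜ : Finset E)) : Set E) y.2,
          G y := by
        apply Finset.sum_le_sum_of_subset_of_nonneg
        · intro y hy
          obtain ⟨T, hT, rfl⟩ := Finset.mem_image.1 hy
          have hT' := (Finset.mem_filter.1 hT).2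
          have h1 := hF T hT'
          refine Finset.mem_filter.2 ⟨Finset.mem_univ _, ?_, h1.2⟩
          exact Finset.mem_sdiff.2 ⟨hT'.1, fun h => (h1.1 z h).1 rfl⟩
        · intro y _ _
          exact mul_nonneg (wt_nonneg ha hb.le _) (pow_nonneg hp _)
    _ = ∑ T : Finset E with z ∈ T, wt a b T *
          ∑ R : Finset E with Pat M u z (((Tᶜ : Finset E)) : Set E) R, (a / b) ^ R.card := by
        rw [Finset.sum_filter, Fintype.sum_prod_type, Finset.sum_filter]
        refine Finset.sum_congr rfl fun T _ => ?_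
        by_cases hzT : z ∈ T
        · rw [if_pos hzT, Finset.mul_sum, Finset.sum_filter]
          refine Finset.sum_congr rfl fun R _ => ?_
          by_cases hR : Pat M u z (((Tᶜ : Finset E)) : Set E) R
          · rw [if_pos ⟨hzT, hR⟩, if_pos hR]
          · rw [if_neg (fun h => hR h.2), if_neg hR]
        · rw [if_neg hzT]
          exact Finset.sum_eq_zero fun R _ => if_neg fun h => hzT h.1
    _ ≤ ∑ T : Finset E with z ∈ T, wt a b T * (a / b * (1 + a / b) ^ (L - 2)) := by
        refine Finset.sum_le_sum fun T hT => ?_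
        refine mul_le_mul_of_nonneg_left (sum_pat_le hL hC ?_ hp) (wt_nonneg ha hb.le _)
        intro h
        exact (Finset.mem_compl.1 (Finset.mem_coe.1 h)) (Finset.mem_filter.1 hT).2
    _ = _ := by rw [← Finset.sum_mul]

end pattern

end Vale.Agent.P331.Cir
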