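import Vale.Agent.P331.H681.CircB
import Mathlib.Analysis.Complex.ExponentialBounds

/-!
# Matroids with short circuits, almighty adversary: the core inequality
-/

namespace Vale.Agent.P331.Cir

open MeasureTheory Set Vale.Agent.P331 Vale.Agent.P331.Osel
open scoped ENNReal NNReal Classical

set_option linter.all false

section labels

variable {E : Type} [Fintype E] {M : Matroid E} {u : E → ℝ≥0} {z : E}

/-- The set of test elements. -/
noncomputable def TF (a : ℕ) {N : ℕ} (r : E → Fin N) : Finset E := Finset.univ.filter (TT a r)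

theorem card_lt (a N : ℕ) (ha : a ≤ N) :
    (Finset.univ.filter fun i : Fin (N + 1) => (i : ℕ) < a).card = a := by
  have h1 : (Finset.univ.filter fun i : Fin (N + 1) => (i : ℕ) < a) =
      (Finset.range a).attachFin (fun n hn => by
        have := Finset.mem_range.1 hn
        omega) := by
    ext i
    simp
  rw [h1, Finset.card_attachFin, Finset.card_range]

theorem card_fiber (a N : ℕ) (ha : a ≤ N) (T : Finset E) :
    ((Finset.univ.filter fun r : E → Fin (N + 1) => TF a r = T).card : ℝ) =
      wt (a : ℝ) ((N : ℝ) + 1 - a) T := by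
  have h1 : (Finset.univ.filter fun r : E → Fin (N + 1) => TF a r = T) =
      Fintype.piFinset (fun e => if e ∈ T then
        (Finset.univ.filter fun i : Fin (N + 1) => (i : ℕ) < a) else
        (Finset.univ.filter fun i : Fin (N + 1) => (i : ℕ) < a)ᶜ) := by
    ext r
    rw [Finset.mem_filter, Fintype.mem_piFinset]
    constructor
    · rintro ⟨_, h⟩ e
      have h2 : e ∈ TF a r ↔ (r e : ℕ) < a := by
        unfold TF TT
        simp
      by_cases he : e ∈ T
      · rw [if_pos he]
        rw [← h] at he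
        simp [h2.1 he]
      · rw [if_neg he]
        rw [← h] at he
        simp only [Finset.mem_compl, Finset.mem_filter, Finset.mem_univ, true_and]
        exact fun h3 => he (h2.2 h3)
    · intro h
      refine ⟨Finset.mem_univ _, ?_⟩
      ext e
      have h2 : e ∈ TF a r ↔ (r e : ℕ) < a := by
        unfold TF TT
        simp
      rw [h2]
      have h3 := h e
      by_cases he : e ∈ T
      · rw [if_pos he] at h3
        simp only [Finset.mem_filter, Finset.mem_univ, true_and] at h3
        exact ⟨fun _ => he, fun _ => h3⟩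
      · rw [if_neg he] at h3
        simp only [Finset.mem_compl, Finset.mem_filter, Finset.mem_univ, true_and] at h3
        exact ⟨fun h4 => absurd h4 h3, fun h4 => absurd h4 he⟩
  rw [h1, Fintype.card_piFinset]
  have h2 : ∀ e : E, (if e ∈ T then
        (Finset.univ.filter fun i : Fin (N + 1) => (i : ℕ) < a) else
        (Finset.univ.filter fun i : Fin (N + 1) => (i : ℕ) < a)ᶜ).card =
      if e ∈ T then a else N + 1 - a := by
    intro e
    by_cases he : e ∈ T
    · rw [if_pos he, if_pos he, card_lt a N ha]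
    · rw [if_neg he, if_neg he, Finset.card_compl, card_lt a N ha, Fintype.card_fin]
  rw [Finset.prod_congr rfl fun e _ => h2 e]
  rw [Finset.prod_ite, Finset.prod_const, Finset.prod_const]
  have h3 : (Finset.univ.filter fun e => e ∈ T) = T := by ext e; simp
  have h4 : (Finset.univ.filter fun e => e ∉ T) = Tᶜ := by ext e; simp
  rw [h3, h4]
  unfold wt
  have h5 : a ≤ N + 1 := by omega
  push_cast [Nat.cast_sub h5]
  ring

theorem sum_wt_mem (a b : ℝ) :
    (a + b) * ∑ T : Finset E with z ∈ T, wt a b T = a * (a + b) ^ Fintype.card E := by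
  have h1 : (Finset.univ.filter fun T : Finset E => z ∈ T) =
      (Finset.univ.erase z).powerset.image fun S => insert z S := by
    ext T
    rw [Finset.mem_filter, Finset.mem_image]
    constructor
    · rintro ⟨_, h⟩
      refine ⟨T.erase z, Finset.mem_powerset.2 ?_, Finset.insert_erase h⟩
      exact Finset.erase_subset_erase z (Finset.subset_univ T)
    · rintro ⟨S, _, rfl⟩
      exact ⟨Finset.mem_univ _, Finset.mem_insert_self z S⟩
  have hz : ∀ S ∈ (Finset.univ.erase z).powerset, z ∉ S := fun S hS h =>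
    Finset.notMem_erase z Finset.univ (Finset.mem_powerset.1 hS h)
  rw [h1, Finset.sum_image]
  · have hn : 0 < Fintype.card E := Fintype.card_pos_iff.2 ⟨z⟩
    have hc : (Finset.univ.erase z : Finset E).card = Fintype.card E - 1 := by
      rw [Finset.card_erase_of_mem (Finset.mem_univ z), Finset.card_univ]
    have h2 : ∀ S ∈ (Finset.univ.erase z).powerset, wt a b (insert z S) =
        a * (a ^ S.card * b ^ ((Finset.univ.erase z : Finset E).card - S.card)) := by
      intro S hS
      unfold wt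
      rw [Finset.card_compl, Finset.card_insert_of_notMem (hz S hS), hc]
      have h3 : Fintype.card E - (S.card + 1) = Fintype.card E - 1 - S.card := by omega
      rw [h3]
      ring
    rw [Finset.sum_congr rfl h2, ← Finset.mul_sum, Finset.sum_pow_mul_eq_add_pow, hc]
    have h4 : (a + b) ^ Fintype.card E = (a + b) * (a + b) ^ (Fintype.card E - 1) := by
      rw [← pow_succ']
      congr 1
      omega
    rw [h4]
    ring
  · intro S hS S' hS' h
    change insert z S = insert z S' at h
    rw [← Finset.erase_insert (hz S hS), h, Finset.erase_insert (hz S' hS')]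

/-- The ratio. -/
noncomputable def rat (a b : ℝ) (L : ℕ) : ℝ := a / (a + b) * (1 - a / b * (1 + a / b) ^ (L - 2))

/-- Every element of the greedy basis is a safe test element for a constant fraction of the
labels. -/
theorem card_safe {L : ℕ} (hL : 2 ≤ L) (hC : ∀ C, M.IsCircuit C → C.encard ≤ L)
    (hz : Gr M u z) (a N : ℕ) (ha : a ≤ N) :
    rat a ((N : ℝ) + 1 - a) L * (Fintype.card (E → Fin (N + 1)) : ℝ) ≤
      ((Finset.univ.filter fun r : E → Fin (N + 1) => z ∈ TF a r ∧ Safe M u z (TF a r)).card :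
        ℝ) := by
  set b : ℝ := (N : ℝ) + 1 - a with hb
  have ha' : (a : ℝ) ≤ N := by exact_mod_cast ha
  have hb0 : 0 < b := by rw [hb]; linarith
  have ha0 : (0 : ℝ) ≤ a := Nat.cast_nonneg a
  have hab : (a : ℝ) + b = N + 1 := by rw [hb]; ring
  -- the number of labels as a weighted sum
  have h1 : ((Finset.univ.filter fun r : E → Fin (N + 1) =>
      z ∈ TF a r ∧ Safe M u z (TF a r)).card : ℝ) =
      ∑ T : Finset E with z ∈ T ∧ Safe M u z T, wt (a : ℝ) b T := by
    have h2 : ((Finset.univ.filter fun r : E → Fin (N + 1) =>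
        z ∈ TF a r ∧ Safe M u z (TF a r)).card : ℝ) =
        ∑ r : E → Fin (N + 1), if z ∈ TF a r ∧ Safe M u z (TF a r) then (1 : ℝ) else 0 := by
      rw [Finset.sum_boole]
    rw [h2, ← Finset.sum_fiberwise Finset.univ (fun r : E → Fin (N + 1) => TF a r),
      Finset.sum_filter]
    refine Finset.sum_congr rfl fun T _ => ?_
    have h3 : ∀ r ∈ (Finset.univ.filter fun r : E → Fin (N + 1) => TF a r = T),
        (if z ∈ TF a r ∧ Safe M u z (TF a r) then (1 : ℝ) else 0) =
          if z ∈ T ∧ Safe M u z T then (1 : ℝ) else 0 := by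
      intro r hr
      rw [(Finset.mem_filter.1 hr).2]
    rw [Finset.sum_congr rfl h3, Finset.sum_const, nsmul_eq_mul, card_fiber a N ha T]
    by_cases h4 : z ∈ T ∧ Safe M u z T
    · rw [if_pos h4, if_pos h4, mul_one]
    · rw [if_neg h4, if_neg h4, mul_zero]
  rw [h1]
  have h5 : ∑ T : Finset E with z ∈ T, wt (a : ℝ) b T =
      ∑ T : Finset E with z ∈ T ∧ Safe M u z T, wt (a : ℝ) b T +
        ∑ T : Finset E with z ∈ T ∧ ¬ Safe M u z T, wt (a : ℝ) b T := by
    rw [← Finset.sum_filter_add_sum_filter_not (Finset.univ.filter fun T : Finset E => z ∈ T)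
      (fun T => Safe M u z T), Finset.filter_filter, Finset.filter_filter]
  have h6 := sum_unsafe_le (M := M) (u := u) hL hC hz ha0 hb0
  have h7 := sum_wt_mem (z := z) (a : ℝ) b
  have hcard : (Fintype.card (E → Fin (N + 1)) : ℝ) = ((a : ℝ) + b) ^ Fintype.card E := by
    rw [Fintype.card_fun, Fintype.card_fin, hab]
    push_cast
    rfl
  rw [hcard]
  set W := ∑ T : Finset E with z ∈ T, wt (a : ℝ) b T with hW
  have hab0 : 0 < (a : ℝ) + b := by linarith
  have h8 : (a : ℝ) / (a + b) * (a + b) ^ Fintype.card E = W := by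
    rw [div_mul_eq_mul_div, div_eq_iff hab0.ne', mul_comm W]
    exact h7.symm
  have h9 : rat (a : ℝ) b L * (a + b) ^ Fintype.card E =
      W - W * ((a : ℝ) / b * (1 + a / b) ^ (L - 2)) := by
    rw [← h8]
    unfold rat
    ring
  rw [h9]
  linarith

end labels

section core

variable {E : Type} [Fintype E] {M : Matroid E}

theorem opt_le_Gr (hM : M.E = univ) (v : E → ℝ≥0) :
    opt M v ≤ ∑ e : E with Gr M v e, (v e : ℝ≥0∞) := by
  unfold opt
  apply iSup_le
  intro I
  apply iSup_le
  intro hI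
  exact sum_le_greedy hM (key v) (v := v) (fun e f h => le_of_key_lt h) I
    (Finset.univ.filter (Gr M v)) hI
    (fun g hg => Finset.mem_filter.2 ⟨Finset.mem_univ _, hg⟩)

/-- Exchange of the coins outside the test elements. -/
noncomputable def kap {N : ℕ} (a : ℕ) (r : E → Fin N) (c : E → Bool) (e : E) : Bool :=
  if TT a r e then c e else !(c e)

theorem kap_invol {N : ℕ} (a : ℕ) (r : E → Fin N) : Function.Involutive (kap a r) := by
  intro c
  funext e
  unfold kap
  by_cases h : TT a r e
  · simp [h]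
  · simp [h]

/-- The gain for one choice of the labels and coins. -/
theorem gain_ge {N : ℕ} (a : ℕ) (r : E → Fin N) (c : E → Bool) (x y : E → ℝ≥0) (o : Order E) :
    ∑ z : E with Gr M (sel c y x) z ∧ z ∈ TF a r ∧ Safe M (sel c y x) z (TF a r),
        (sel c y x z : ℝ≥0∞) ≤
      ∑ e ∈ accepted (dec M (TT a r) (sel (kap a r c) x y)) (history (sel (kap a r c) y x) o),
        (sel (kap a r c) y x e : ℝ≥0∞) := by
  set u := sel c y x with hu
  set s := sel (kap a r c) x y with hs'
  set v := sel (kap a r c) y x with hv'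
  have hmem : ∀ e, e ∈ TF a r ↔ TT a r e := by
    intro e
    unfold TF
    simp
  have hsu : ∀ f, ¬ TT a r f → s f = u f := by
    intro f hf
    rw [hs', hu]
    unfold sel kap
    rw [if_neg hf]
    cases c f <;> simp
  have hvu : ∀ f, TT a r f → v f = u f := by
    intro f hf
    rw [hv', hu]
    unfold sel kap
    rw [if_pos hf]
  have hhist : history v o = hs v o.1.reverse := by
    unfold history hs
    rw [List.map_reverse]
  rw [hhist]
  have hsub : (Finset.univ.filter fun z : E => Gr M u z ∧ z ∈ TF a r ∧ Safe M u z (TF a r)) ⊆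
      accepted (dec M (TT a r) s) (hs v o.1.reverse) := by
    intro z hz
    obtain ⟨_, hzT, hsafe⟩ := (Finset.mem_filter.1 hz).2
    refine mem_accepted_of_good (List.nodup_reverse.2 o.2.1) (List.mem_reverse.2 (o.2.2 z))
      ((hmem z).1 hzT) ?_
    intro B hB hl
    have hTeq : (fun e => e ∈ TF a r) = TT a r := by
      funext e
      exact propext (hmem e)
    have hB' : ∀ f ∈ insert z B, TT a r f := by
      intro f hf
      rcases hf with rfl | hf
      · exact (hmem f).1 hzT
      · exact (hB f hf).2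
    rw [lwE_congr hsu hvu (fun f hf => (hB f hf).2)] at hl
    rw [lwE_congr hsu hvu hB']
    unfold Safe at hsafe
    have h1 := hsafe B (fun f hf => ⟨(hB f hf).1, (hmem f).2 (hB f hf).2⟩)
    simp only [hTeq] at h1
    exact h1 hl
  refine le_trans ?_ (Finset.sum_le_sum_of_subset hsub)
  refine le_of_eq (Finset.sum_congr rfl fun z hz => ?_)
  rw [hvu z ((hmem z).1 (Finset.mem_filter.1 hz).2.2.1)]

/-- The core inequality. -/
theorem core (hM : M.E = univ) {L : ℕ} (hL : 2 ≤ L) (hC : ∀ C, M.IsCircuit C → C.encard ≤ L)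
    (a N : ℕ) (ha : a ≤ N) (x y : E → ℝ≥0) (o : (E → Fin (N + 1)) → (E → Bool) → Order E) :
    ENNReal.ofReal (rat a ((N : ℝ) + 1 - a) L) * Fintype.card (E → Fin (N + 1)) *
        ∑ c : E → Bool, opt M (sel c y x) ≤
      ∑ r : E → Fin (N + 1), ∑ c : E → Bool,
        ∑ e ∈ accepted (dec M (TT a r) (sel c x y)) (history (sel c y x) (o r c)),
          (sel c y x e : ℝ≥0∞) := by
  set Q : ℝ≥0∞ := ENNReal.ofReal (rat a ((N : ℝ) + 1 - a) L) * Fintype.card (E → Fin (N + 1))
    with hQ
  have h1 : ∀ r : E → Fin (N + 1), ∑ c : E → Bool,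
        ∑ e ∈ accepted (dec M (TT a r) (sel c x y)) (history (sel c y x) (o r c)),
          (sel c y x e : ℝ≥0∞) =
      ∑ c : E → Bool, ∑ e ∈ accepted (dec M (TT a r) (sel (kap a r c) x y))
          (history (sel (kap a r c) y x) (o r (kap a r c))),
          (sel (kap a r c) y x e : ℝ≥0∞) := fun r =>
    (Equiv.sum_comp (kap_invol a r).toPerm (fun c : E → Bool =>
        ∑ e ∈ accepted (dec M (TT a r) (sel c x y)) (history (sel c y x) (o r c)),
          (sel c y x e : ℝ≥0∞))).symm
  rw [Finset.sum_congr rfl fun r _ => h1 r]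
  have h2 : ∑ r : E → Fin (N + 1), ∑ c : E → Bool,
      ∑ z : E with Gr M (sel c y x) z ∧ z ∈ TF a r ∧ Safe M (sel c y x) z (TF a r),
        (sel c y x z : ℝ≥0∞) ≤
      ∑ r : E → Fin (N + 1), ∑ c : E → Bool, ∑ e ∈ accepted (dec M (TT a r)
          (sel (kap a r c) x y)) (history (sel (kap a r c) y x) (o r (kap a r c))),
          (sel (kap a r c) y x e : ℝ≥0∞) :=
    Finset.sum_le_sum fun r _ => Finset.sum_le_sum fun c _ => gain_ge a r c x y _
  refine le_trans ?_ h2
  rw [Finset.sum_comm, Finset.mul_sum]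
  refine Finset.sum_le_sum fun c _ => ?_
  set u := sel c y x with hu
  have h3 : ∑ r : E → Fin (N + 1),
      ∑ z : E with Gr M u z ∧ z ∈ TF a r ∧ Safe M u z (TF a r), (u z : ℝ≥0∞) =
      ∑ z : E with Gr M u z, ((Finset.univ.filter fun r : E → Fin (N + 1) =>
        z ∈ TF a r ∧ Safe M u z (TF a r)).card : ℝ≥0∞) * (u z : ℝ≥0∞) := by
    have h4 : ∀ r : E → Fin (N + 1),
        ∑ z : E with Gr M u z ∧ z ∈ TF a r ∧ Safe M u z (TF a r), (u z : ℝ≥0∞) =
        ∑ z : E with Gr M u z, if z ∈ TF a r ∧ Safe M u z (TF a r) then (u z : ℝ≥0∞) else 0 := by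
      intro r
      rw [← Finset.sum_filter, Finset.filter_filter]
    rw [Finset.sum_congr rfl fun r _ => h4 r, Finset.sum_comm]
    refine Finset.sum_congr rfl fun z _ => ?_
    rw [← Finset.sum_filter, Finset.sum_const, nsmul_eq_mul]
  rw [h3]
  calc Q * opt M u ≤ Q * ∑ e : E with Gr M u e, (u e : ℝ≥0∞) :=
        mul_le_mul_right (opt_le_Gr hM u) Q
    _ = ∑ z : E with Gr M u z, Q * (u z : ℝ≥0∞) := Finset.mul_sum _ _ _
    _ ≤ _ := by
        refine Finset.sum_le_sum fun z hz => mul_le_mul_left ?_ _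
        have h5 := card_safe hL hC (Finset.mem_filter.1 hz).2 a N ha
        rw [hQ]
        have h6 : (Fintype.card (E → Fin (N + 1)) : ℝ≥0∞) =
            ENNReal.ofReal (Fintype.card (E → Fin (N + 1)) : ℝ) := by
          rw [ENNReal.ofReal_natCast]
        have h7 : ((Finset.univ.filter fun r : E → Fin (N + 1) =>
            z ∈ TF a r ∧ Safe M u z (TF a r)).card : ℝ≥0∞) = ENNReal.ofReal
            ((Finset.univ.filter fun r : E → Fin (N + 1) =>
            z ∈ TF a r ∧ Safe M u z (TF a r)).card : ℝ) := by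
          rw [ENNReal.ofReal_natCast]
        rw [h6, h7]
        by_cases hr : 0 ≤ rat (a : ℝ) ((N : ℝ) + 1 - a) L
        · rw [← ENNReal.ofReal_mul hr]
          exact ENNReal.ofReal_le_ofReal h5
        · rw [ENNReal.ofReal_of_nonpos (le_of_lt (not_le.1 hr)), zero_mul]
          exact zero_le

/-- The rule is competitive. -/
theorem cirRule_competitive (hM : M.E = univ) {L : ℕ} (hL : 2 ≤ L)
    (hC : ∀ C, M.IsCircuit C → C.encard ≤ L) (a N : ℕ) (ha : a ≤ N) :
    (cirRule hM a N).IsCompetitive (ENNReal.ofReal (rat a ((N : ℝ) + 1 - a) L)) := by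
  let _ : Fintype (cirRule hM a N).Seed := (inferInstance : Fintype (E → Fin (N + 1)))
  have _ : MeasurableSingletonClass (cirRule hM a N).Seed :=
    (inferInstance : MeasurableSingletonClass (E → Fin (N + 1)))
  refine isCompetitive_of_core (cirRule hM a N) (fun r => unif_singleton (E → Fin (N + 1)) r) _ ?_
  intro x y o
  exact core hM hL hC a N ha x y o

/-- The numerical inequality. -/
theorem rat_ge {L : ℕ} (hL : 2 ≤ L) :
    ((Nat.log 2 L : ℕ) : ℝ) / (9 * L) ≤
      rat ((Nat.log 2 L : ℕ) : ℝ) ((4 * L : ℕ) : ℝ) L := by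
  set k := Nat.log 2 L with hk
  have hL0 : (0 : ℝ) < L := by exact_mod_cast (by omega : 0 < L)
  have h2k : 2 ^ k ≤ L := Nat.pow_log_le_self 2 (by omega)
  have h2k' : (2 : ℝ) ^ k ≤ L := by exact_mod_cast h2k
  have hk1 : 1 ≤ k := by
    rw [hk]
    exact Nat.log_pos (by norm_num) hL
  have h2k2 : 2 * k ≤ 2 ^ k := by
    have hgen : ∀ m : ℕ, 2 * (m + 1) ≤ 2 ^ (m + 1) := by
      intro m
      induction m with
      | zero => norm_num
      | succ m ih => rw [pow_succ]; omega
    obtain ⟨m, hm⟩ : ∃ m, k = m + 1 := ⟨k - 1, by omega⟩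
    rw [hm]
    exact hgen m
  have hkk : k ^ 2 ≤ 4 * 2 ^ k := by
    have hgen : ∀ m : ℕ, m ^ 2 ≤ 4 * 2 ^ m := by
      intro m
      induction m with
      | zero => norm_num
      | succ m ih =>
        rcases Nat.lt_or_ge m 3 with h | h
        · interval_cases m <;> norm_num
        · have h1 : (m + 1) ^ 2 ≤ 2 * m ^ 2 := by nlinarith
          rw [pow_succ 2 m]
          omega
    exact hgen k
  set p : ℝ := (k : ℝ) / ((4 * L : ℕ) : ℝ) with hp
  have hp' : p = (k : ℝ) / (4 * L) := by rw [hp]; push_cast; rfl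
  have hp0 : 0 ≤ p := by rw [hp']; positivity
  -- the power
  have hx : ((1 + p) ^ (L - 2)) ^ 2 ≤ L := by
    have h1 : (1 + p) ^ (L - 2) ≤ (1 + p) ^ L := pow_le_pow_right₀ (by linarith) (by omega)
    have h2 : (1 + p) ^ L ≤ Real.exp (p * L) := by
      have h3 : 1 + p ≤ Real.exp p := by
        have := Real.add_one_le_exp p
        linarith
      calc (1 + p) ^ L ≤ (Real.exp p) ^ L := pow_le_pow_left₀ (by linarith) h3 L
        _ = Real.exp (p * L) := by rw [← Real.exp_nat_mul, mul_comm]
    have h4 : p * L = (k : ℝ) / 4 := by rw [hp']; field_simp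
    rw [h4] at h2
    have h5 : ((1 + p) ^ (L - 2)) ^ 2 ≤ (Real.exp ((k : ℝ) / 4)) ^ 2 :=
      pow_le_pow_left₀ (by positivity) (h1.trans h2) 2
    refine h5.trans ?_
    rw [← Real.exp_nat_mul]
    have h6 : ((2 : ℕ) : ℝ) * ((k : ℝ) / 4) = (k : ℝ) * (1 / 2) := by push_cast; ring
    rw [h6, Real.exp_nat_mul]
    refine le_trans ?_ h2k'
    apply pow_le_pow_left₀ (Real.exp_pos _).le
    have h7 : Real.exp (1 / 2) ^ 2 ≤ 2 ^ 2 := by
      rw [← Real.exp_nat_mul]
      have h8 : ((2 : ℕ) : ℝ) * (1 / 2) = 1 := by norm_num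
      rw [h8]
      have := Real.exp_one_lt_three
      linarith
    exact le_of_sq_le_sq h7 (by norm_num)
  have hpx : p * (1 + p) ^ (L - 2) ≤ 1 / 2 := by
    have h1 : (p * (1 + p) ^ (L - 2)) ^ 2 ≤ (1 / 2) ^ 2 := by
      rw [mul_pow]
      have h2 : p ^ 2 * ((1 + p) ^ (L - 2)) ^ 2 ≤ p ^ 2 * L :=
        mul_le_mul_of_nonneg_left hx (sq_nonneg p)
      refine h2.trans ?_
      rw [hp']
      have hkk' : (k : ℝ) ^ 2 ≤ 4 * L := by
        have : (k : ℝ) ^ 2 ≤ 4 * 2 ^ k := by exact_mod_cast hkk
        linarith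
      have h3 : ((k : ℝ) / (4 * L)) ^ 2 * L = (k : ℝ) ^ 2 / (16 * L) := by
        field_simp
        ring
      rw [h3, div_le_iff₀ (by positivity)]
      linarith
    exact le_of_sq_le_sq h1 (by norm_num)
  unfold rat
  rw [← hp]
  have h9 : (1 : ℝ) / 2 ≤ 1 - p * (1 + p) ^ (L - 2) := by linarith
  have hkL : 2 * (k : ℝ) ≤ L := by
    have : 2 * k ≤ L := h2k2.trans h2k
    exact_mod_cast this
  have hden : (0 : ℝ) < (k : ℝ) + ((4 * L : ℕ) : ℝ) := by push_cast; positivity
  calc (k : ℝ) / (9 * L) ≤ (k : ℝ) / ((k : ℝ) + ((4 * L : ℕ) : ℝ)) * (1 / 2) := by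
        rw [div_mul_eq_mul_div, mul_one_div, div_div, div_le_div_iff₀ (by positivity) (by positivity)]
        push_cast
        have hk0 : (0 : ℝ) ≤ k := Nat.cast_nonneg k
        nlinarith
    _ ≤ _ := mul_le_mul_of_nonneg_left h9 (by positivity)

end core

end Vale.Agent.P331.Cir
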